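import Vale.Agent.Lib.P024.Reduction

namespace Vale.Agent.Results.P024.SurjReduction

open Vale.Agent.Lib.P024

/-- Uchida's conjecture (every continuous homomorphism with open image between Galois groups of
solvably closed Galois extensions of number fields is induced by a field embedding) is
equivalent to its special case in which the homomorphism is surjective. -/
theorem result : UchidaConjecture ↔ UchidaConjectureSurjective :=
  ⟨surjective_case_of_conjecture, reduction_to_surjective⟩

end Vale.Agent.Results.P024.SurjReduction
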